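import Vale.Agent.P052_h4.Data

/-! Kernel-computable checks for the 321-point configuration.  Everything is written with raw
recursors on `Nat`/`List`/`Bool`, so that evaluation in the kernel is fast. -/

namespace Vale.Agent.P052h4

/-- conjunction of `f j` over `j < n` -/
def allLT (f : ℕ → Bool) (n : ℕ) : Bool :=
  Nat.rec (motive := fun _ => Bool) true
    (fun j ih => Bool.rec (motive := fun _ => Bool) false ih (f j)) n

theorem allLT_spec {f : ℕ → Bool} {n : ℕ} (h : allLT f n = true) :
    ∀ j < n, f j = true := by
  induction n with
  | zero => intro j hj; omega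
  | succ n ih =>
    have h' : Bool.rec (motive := fun _ => Bool) false (allLT f n) (f n) = true := h
    intro j hj
    cases hf : f n with
    | false => rw [hf] at h'; exact absurd h' (by simp)
    | true =>
      rw [hf] at h'
      rcases Nat.lt_succ_iff_lt_or_eq.mp hj with hlt | heq
      · exact ih h' j hlt
      · rw [heq]; exact hf

/-- sum of `f j` over `j < n` -/
def sumTo (f : ℕ → ℕ) (n : ℕ) : ℕ :=
  Nat.rec (motive := fun _ => ℕ) 0 (fun j ih => Nat.add ih (f j)) n

theorem sumTo_eq (f : ℕ → ℕ) (n : ℕ) : sumTo f n = ∑ j ∈ Finset.range n, f j := by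
  induction n with
  | zero => rfl
  | succ n ih => rw [Finset.sum_range_succ, ← ih]; rfl

/-- bit `b` of `r` -/
def tb (r b : ℕ) : Bool := Nat.ble 1 (Nat.land 1 (Nat.shiftRight r b))

/-- adjacency row of vertex `h`, as a bitmask -/
def row (h : ℕ) : ℕ :=
  Nat.land (Nat.shiftRight ROW (Nat.mul 321 h)) (Nat.sub (Nat.pow 2 321) 1)

/-- elements `b` of the list with bit `b` of `r` set (reversed, prepended to `acc`) -/
def filt (r : ℕ) (l : List ℕ) : List ℕ → List ℕ :=
  List.rec (motive := fun _ => List ℕ → List ℕ) (fun acc => acc)
    (fun b _ ih acc =>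
      Bool.rec (motive := fun _ => List ℕ) (ih acc) (ih (b :: acc)) (tb r b)) l

/-- one level of the clique search -/
def goL (f : List ℕ → Bool) (l : List ℕ) : Bool :=
  List.rec (motive := fun _ => Bool) true
    (fun a l ih => Bool.rec (motive := fun _ => Bool) false ih (f (filt (row a) l []))) l

/-- `noC k l = true` implies that there is no clique with `k + 1` elements inside `l` -/
def noC (k : ℕ) : List ℕ → Bool :=
  Nat.rec (motive := fun _ => List ℕ → Bool) (fun l => l.isEmpty) (fun _ ih => goL ih) k

/-- list of the `b < n` with bit `b` of `r` set -/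
def bits (r : ℕ) (n : ℕ) : List ℕ → List ℕ :=
  Nat.rec (motive := fun _ => List ℕ → List ℕ) (fun acc => acc)
    (fun b ih acc =>
      Bool.rec (motive := fun _ => List ℕ) (ih acc) (ih (b :: acc)) (tb r b)) n

theorem mem_filt (r : ℕ) (l acc : List ℕ) (x : ℕ) :
    x ∈ filt r l acc ↔ x ∈ acc ∨ (x ∈ l ∧ tb r x = true) := by
  induction l generalizing acc with
  | nil => simp [filt]
  | cons b l ih =>
    have h : filt r (b :: l) acc =
        Bool.rec (motive := fun _ => List ℕ) (filt r l acc) (filt r l (b :: acc)) (tb r b) := rfl
    rw [h]
    cases hb : tb r b with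
    | false =>
      simp only [ih, List.mem_cons]
      constructor
      · rintro (h | ⟨h, h'⟩)
        · exact Or.inl h
        · exact Or.inr ⟨Or.inr h, h'⟩
      · rintro (h | ⟨h | h, h'⟩)
        · exact Or.inl h
        · rw [h] at h'; rw [hb] at h'; exact absurd h' (by simp)
        · exact Or.inr ⟨h, h'⟩
    | true =>
      simp only [ih, List.mem_cons]
      constructor
      · rintro ((h | h) | ⟨h, h'⟩)
        · right; rw [h]; exact ⟨Or.inl rfl, hb⟩
        · exact Or.inl h
        · exact Or.inr ⟨Or.inr h, h'⟩
      · rintro (h | ⟨h | h, h'⟩)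
        · exact Or.inl (Or.inr h)
        · exact Or.inl (Or.inl h)
        · exact Or.inr ⟨h, h'⟩

theorem mem_bits (r n : ℕ) (acc : List ℕ) (x : ℕ) :
    x ∈ bits r n acc ↔ x ∈ acc ∨ (x < n ∧ tb r x = true) := by
  induction n generalizing acc with
  | zero => simp [bits]
  | succ n ih =>
    have h : bits r (n + 1) acc =
        Bool.rec (motive := fun _ => List ℕ) (bits r n acc) (bits r n (n :: acc)) (tb r n) := rfl
    rw [h]
    cases hb : tb r n with
    | false =>
      simp only [ih]
      constructor
      · rintro (h | ⟨h, h'⟩)
        · exact Or.inl h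
        · exact Or.inr ⟨by omega, h'⟩
      · rintro (h | ⟨h, h'⟩)
        · exact Or.inl h
        · right
          refine ⟨?_, h'⟩
          rcases Nat.lt_succ_iff_lt_or_eq.mp h with h1 | h1
          · exact h1
          · rw [h1, hb] at h'; exact absurd h' (by simp)
    | true =>
      simp only [ih, List.mem_cons]
      constructor
      · rintro ((h | h) | ⟨h, h'⟩)
        · right; rw [h]; exact ⟨by omega, hb⟩
        · exact Or.inl h
        · exact Or.inr ⟨by omega, h'⟩
      · rintro (h | ⟨h, h'⟩)
        · exact Or.inl (Or.inr h)
        · rcases Nat.lt_succ_iff_lt_or_eq.mp h with h1 | h1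
          · exact Or.inr ⟨h1, h'⟩
          · exact Or.inl (Or.inl h1)

/-- adjacency relation -/
def Adj (a b : ℕ) : Prop := tb (row a) b = true

theorem noC_spec (k : ℕ) : ∀ (l : List ℕ), noC k l = true →
    ∀ s : Finset ℕ, (∀ x ∈ s, x ∈ l) → (∀ x ∈ s, ∀ y ∈ s, x ≠ y → Adj x y) →
    s.card ≤ k := by
  induction k with
  | zero =>
    intro l hl s hs _
    have hl' : l.isEmpty = true := hl
    rw [List.isEmpty_iff] at hl'
    subst hl'
    rw [Nat.le_zero, Finset.card_eq_zero]
    exact Finset.eq_empty_of_forall_notMem (fun x hx => by simpa using hs x hx)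
  | succ k ihk =>
    intro l
    induction l with
    | nil =>
      intro _ s hs _
      have : s = ∅ := Finset.eq_empty_of_forall_notMem (fun x hx => by simpa using hs x hx)
      simp [this]
    | cons a l ihl =>
      intro hl s hs hc
      have hl' : Bool.rec (motive := fun _ => Bool) false (noC (k + 1) l)
          (noC k (filt (row a) l [])) = true := hl
      cases hf : noC k (filt (row a) l []) with
      | false => rw [hf] at hl'; exact absurd hl' (by simp)
      | true =>
        rw [hf] at hl'
        by_cases ha : a ∈ s
        · have h1 : (s.erase a).card ≤ k := by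
            refine ihk _ hf (s.erase a) ?_ ?_
            · intro x hx
              rw [mem_filt]
              right
              have hxs := Finset.mem_of_mem_erase hx
              have hxa := Finset.ne_of_mem_erase hx
              refine ⟨?_, hc a ha x hxs (Ne.symm hxa)⟩
              rcases List.mem_cons.mp (hs x hxs) with h | h
              · exact absurd h hxa
              · exact h
            · intro x hx y hy hxy
              exact hc x (Finset.mem_of_mem_erase hx) y (Finset.mem_of_mem_erase hy) hxy
          have h2 := Finset.card_erase_add_one ha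
          omega
        · refine ihl hl' s ?_ hc
          intro x hx
          rcases List.mem_cons.mp (hs x hx) with h | h
          · exact absurd (h ▸ hx) ha
          · exact h

/-- check of all cliques whose largest vertex lies in `[base, base + n)` -/
def chunk (base n : ℕ) : Bool :=
  allLT (fun i => noC 4 (bits (row (Nat.add base i)) (Nat.add base i) [])) n

theorem chunk_spec {base n : ℕ} (h : chunk base n = true) :
    ∀ a, base ≤ a → a < base + n → noC 4 (bits (row a) a []) = true := by
  intro a h1 h2
  have h3 := allLT_spec h (a - base) (by omega)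
  have h4 : Nat.add base (a - base) = a := by
    show base + (a - base) = a
    omega
  simpa only [h4] using h3

end Vale.Agent.P052h4
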