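import Vale.Agent.P052_h4.Check

namespace Vale.Agent.P052h4

set_option maxRecDepth 100000 in
theorem chunkA : chunk 0 200 = true := by decide +kernel

set_option maxRecDepth 100000 in
theorem chunkY : noC 4 (bits (row 320) 320 []) = true := by decide +kernel

end Vale.Agent.P052h4
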