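import Vale.Agent.P052_h4.Check

namespace Vale.Agent.P052h4

set_option maxRecDepth 100000 in
theorem chunkB : chunk 200 70 = true := by decide +kernel

end Vale.Agent.P052h4
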