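import Vale.Agent.P052_h4.Gram

namespace Vale.Agent.P052h4

open Finset

theorem Xn_le {i k : ℕ} (hi : i < 321) (hk : k < 63) : Xn i k ≤ 8 := by
  have h1 := allLT_spec small_ok i hi
  have h2 := allLT_spec h1 k hk
  exact Nat.le_of_ble_eq_true h2

theorem col_eq {k : ℕ} (hk : k < 63) :
    ∑ j ∈ range 321, Xn j k * 16384 ^ j = col k := by
  have h := allLT_spec col_ok k hk
  have h' := Nat.eq_of_beq_eq_true h
  rw [sumTo_eq] at h'
  exact h'

/-- adjacency indicator -/
def aij (i j : ℕ) : ℕ := if tb (row i) j = true then 1 else 0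

theorem row_eq {i : ℕ} (hi : i < 321) :
    (∑ k ∈ range 63, Xn i k * col k) + 1012 * ∑ j ∈ range 321, 16384 ^ j =
      (16 * ∑ j ∈ range 321, aij i j * 16384 ^ j) + dg i * 16384 ^ i +
        (4 * (∑ k ∈ range 63, Xn i k) * (∑ j ∈ range 321, 16384 ^ j) +
          4 * ∑ k ∈ range 63, col k) := by
  have h := allLT_spec row_ok i hi
  have h' := Nat.eq_of_beq_eq_true h
  rw [sumTo_eq, sumTo_eq, sumTo_eq, ONES, CSUM, sumTo_eq, sumTo_eq] at h'
  have h3 : ∑ j ∈ range 321, aij i j * 16384 ^ j =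
      ∑ j ∈ range 321, Bool.rec (motive := fun _ => ℕ) 0 (Nat.pow 16384 j) (tb (row i) j) := by
    refine Finset.sum_congr rfl (fun j _ => ?_)
    unfold aij
    cases tb (row i) j with
    | false => simp
    | true => simp
  rw [h3]
  simp only [Nat.add_eq, Nat.mul_eq, Nat.pow_eq] at h' ⊢
  linarith

/-- uniqueness of balanced digit expansions -/
theorem digits_zero (B : ℤ) (hB : 1 < B) : ∀ (n : ℕ) (d : ℕ → ℤ),
    (∀ j < n, |d j| < B) → ∑ j ∈ range n, d j * B ^ j = 0 → ∀ j < n, d j = 0 := by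
  intro n
  induction n with
  | zero => intro d _ _ j hj; omega
  | succ n ih =>
    intro d hd hs
    rw [Finset.sum_range_succ'] at hs
    simp only [pow_zero, mul_one] at hs
    have hdiv : B ∣ d 0 := by
      have h1 : B ∣ ∑ k ∈ range n, d (k + 1) * B ^ (k + 1) := by
        refine Finset.dvd_sum (fun k _ => ?_)
        exact Dvd.dvd.mul_left (dvd_pow_self B (Nat.succ_ne_zero k)) _
      have h2 : d 0 = 0 - ∑ k ∈ range n, d (k + 1) * B ^ (k + 1) := by linarith
      rw [h2]
      exact Dvd.dvd.sub (dvd_zero B) h1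
    have h0 : d 0 = 0 := Int.eq_zero_of_abs_lt_dvd hdiv (hd 0 (Nat.succ_pos n))
    rw [h0, add_zero] at hs
    have hs' : ∑ k ∈ range n, d (k + 1) * B ^ k = 0 := by
      have h3 : ∑ k ∈ range n, d (k + 1) * B ^ (k + 1) =
          B * ∑ k ∈ range n, d (k + 1) * B ^ k := by
        rw [Finset.mul_sum]
        refine Finset.sum_congr rfl (fun k _ => ?_)
        ring
      rw [h3] at hs
      rcases mul_eq_zero.mp hs with h | h
      · omega
      · exact h
    have h4 := ih (fun k => d (k + 1)) (fun j hj => hd (j + 1) (by omega)) hs'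
    intro j hj
    cases j with
    | zero => exact h0
    | succ j => exact h4 j (by omega)

theorem dg_le (i : ℕ) : dg i ≤ 64 := by
  unfold dg
  cases Nat.beq i 320 <;> simp

/-- the key Gram identity in shifted form -/
theorem gram_shift {i j : ℕ} (hi : i < 321) (hj : j < 321) :
    (∑ k ∈ range 63, (Xn i k : ℤ) * (Xn j k : ℤ)) + 1012 =
      16 * (aij i j : ℤ) + (if j = i then (dg i : ℤ) else 0) +
        4 * (∑ k ∈ range 63, (Xn i k : ℤ)) + 4 * (∑ k ∈ range 63, (Xn j k : ℤ)) := by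
  set d : ℕ → ℤ := fun j => (∑ k ∈ range 63, (Xn i k : ℤ) * (Xn j k : ℤ)) + 1012 -
      16 * (aij i j : ℤ) - (if j = i then (dg i : ℤ) else 0) -
        4 * (∑ k ∈ range 63, (Xn i k : ℤ)) - 4 * (∑ k ∈ range 63, (Xn j k : ℤ)) with hd
  have hmain : ∑ j ∈ range 321, d j * (16384 : ℤ) ^ j = 0 := by
    have hr := row_eq hi
    have hr' : (∑ k ∈ range 63, (Xn i k : ℤ) * (col k : ℤ)) +
        1012 * ∑ j ∈ range 321, (16384 : ℤ) ^ j =
      (16 * ∑ j ∈ range 321, (aij i j : ℤ) * 16384 ^ j) + dg i * 16384 ^ i +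
        (4 * (∑ k ∈ range 63, (Xn i k : ℤ)) * (∑ j ∈ range 321, (16384 : ℤ) ^ j) +
          4 * ∑ k ∈ range 63, (col k : ℤ)) := by exact_mod_cast hr
    have hcol : ∀ k ∈ range 63, (col k : ℤ) = ∑ j ∈ range 321, (Xn j k : ℤ) * 16384 ^ j := by
      intro k hk
      have := col_eq (Finset.mem_range.mp hk)
      rw [← this]
      push_cast
      rfl
    have e1 : ∑ k ∈ range 63, (Xn i k : ℤ) * (col k : ℤ) =
        ∑ j ∈ range 321, (∑ k ∈ range 63, (Xn i k : ℤ) * (Xn j k : ℤ)) * 16384 ^ j := by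
      rw [Finset.sum_congr rfl (fun k hk => by rw [hcol k hk, Finset.mul_sum])]
      rw [Finset.sum_comm]
      refine Finset.sum_congr rfl (fun j _ => ?_)
      rw [Finset.sum_mul]
      refine Finset.sum_congr rfl (fun k _ => ?_)
      ring
    have e2 : ∑ k ∈ range 63, (col k : ℤ) =
        ∑ j ∈ range 321, (∑ k ∈ range 63, (Xn j k : ℤ)) * 16384 ^ j := by
      rw [Finset.sum_congr rfl (fun k hk => hcol k hk)]
      rw [Finset.sum_comm]
      refine Finset.sum_congr rfl (fun j _ => ?_)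
      rw [Finset.sum_mul]
    have e3 : ∑ j ∈ range 321, (if j = i then (dg i : ℤ) else 0) * 16384 ^ j =
        dg i * 16384 ^ i := by
      rw [Finset.sum_eq_single i]
      · simp
      · intro b _ hb; simp [hb]
      · intro h; exact absurd (Finset.mem_range.mpr hi) h
    rw [e1, e2] at hr'
    have e4 : ∑ j ∈ range 321, d j * (16384 : ℤ) ^ j =
        (∑ j ∈ range 321, (∑ k ∈ range 63, (Xn i k : ℤ) * (Xn j k : ℤ)) * 16384 ^ j) +
        1012 * (∑ j ∈ range 321, (16384 : ℤ) ^ j) -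
        16 * (∑ j ∈ range 321, (aij i j : ℤ) * 16384 ^ j) -
        (∑ j ∈ range 321, (if j = i then (dg i : ℤ) else 0) * 16384 ^ j) -
        4 * (∑ k ∈ range 63, (Xn i k : ℤ)) * (∑ j ∈ range 321, (16384 : ℤ) ^ j) -
        4 * ∑ j ∈ range 321, (∑ k ∈ range 63, (Xn j k : ℤ)) * 16384 ^ j := by
      simp only [hd, sub_mul, add_mul, Finset.sum_sub_distrib, Finset.sum_add_distrib,
        Finset.mul_sum, Finset.sum_mul]
      simp only [mul_assoc]
    rw [e4, e3]
    linarith
  have hbound : ∀ j < 321, |d j| < 16384 := by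
    intro j hj
    have b1 : ∀ i < 321, ∀ k ∈ range 63, (0 : ℤ) ≤ Xn i k ∧ (Xn i k : ℤ) ≤ 8 := by
      intro i hi k hk
      refine ⟨by positivity, ?_⟩
      exact_mod_cast Xn_le hi (Finset.mem_range.mp hk)
    have s0 : ∀ i < 321, 0 ≤ ∑ k ∈ range 63, (Xn i k : ℤ) ∧
        ∑ k ∈ range 63, (Xn i k : ℤ) ≤ 504 := by
      intro i hi
      refine ⟨Finset.sum_nonneg (fun k hk => (b1 i hi k hk).1), ?_⟩
      have := Finset.sum_le_sum (fun k hk => (b1 i hi k hk).2)
      refine this.trans ?_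
      simp
    have s1 : 0 ≤ ∑ k ∈ range 63, (Xn i k : ℤ) * (Xn j k : ℤ) ∧
        ∑ k ∈ range 63, (Xn i k : ℤ) * (Xn j k : ℤ) ≤ 4032 := by
      refine ⟨Finset.sum_nonneg (fun k hk =>
        mul_nonneg (b1 i hi k hk).1 (b1 j hj k hk).1), ?_⟩
      have h1 : ∀ k ∈ range 63, (Xn i k : ℤ) * (Xn j k : ℤ) ≤ 64 := by
        intro k hk
        have h2 := b1 i hi k hk
        have h3 := b1 j hj k hk
        nlinarith [h2.1, h2.2, h3.1, h3.2]
      refine (Finset.sum_le_sum h1).trans ?_
      simp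
    have a1 : (0 : ℤ) ≤ aij i j ∧ (aij i j : ℤ) ≤ 1 := by
      unfold aij
      split_ifs <;> simp
    have g1 : (0 : ℤ) ≤ (if j = i then (dg i : ℤ) else 0) ∧
        (if j = i then (dg i : ℤ) else 0) ≤ 64 := by
      have := dg_le i
      split_ifs
      · exact ⟨by positivity, by exact_mod_cast this⟩
      · simp
    have t1 := s0 i hi
    have t2 := s0 j hj
    rw [abs_lt]
    simp only [hd]
    constructor <;> linarith [s1.1, s1.2, a1.1, a1.2, g1.1, g1.2, t1.1, t1.2, t2.1, t2.2]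
  have := digits_zero 16384 (by norm_num) 321 d hbound hmain j hj
  simp only [hd] at this
  linarith

/-- integer coordinates of the vectors -/
def X (i k : ℕ) : ℤ := (Xn i k : ℤ) - 4

theorem gram {i j : ℕ} (hi : i < 321) (hj : j < 321) :
    ∑ k ∈ range 63, X i k * X j k =
      16 * (aij i j : ℤ) - 4 + (if j = i then (dg i : ℤ) else 0) := by
  have h := gram_shift hi hj
  have e : ∑ k ∈ range 63, X i k * X j k =
      (∑ k ∈ range 63, (Xn i k : ℤ) * (Xn j k : ℤ)) - 4 * (∑ k ∈ range 63, (Xn i k : ℤ)) -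
      4 * (∑ k ∈ range 63, (Xn j k : ℤ)) + 1008 := by
    have : ∀ k ∈ range 63, X i k * X j k = (Xn i k : ℤ) * (Xn j k : ℤ) - 4 * (Xn i k : ℤ) -
        4 * (Xn j k : ℤ) + 16 := by
      intro k _
      unfold X
      ring
    rw [Finset.sum_congr rfl this]
    simp only [Finset.sum_add_distrib, Finset.sum_sub_distrib, ← Finset.mul_sum]
    simp
  rw [e]
  linarith

theorem aii {i : ℕ} (hi : i < 321) : aij i i = 0 := by
  have h := allLT_spec diag_ok i hi
  unfold aij
  cases hb : tb (row i) i with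
  | false => simp
  | true => rw [hb] at h; exact absurd h (by simp)

theorem norm_lt {i : ℕ} (hi : i < 320) : ∑ k ∈ range 63, X i k * X i k = 60 := by
  rw [gram (by omega) (by omega), aii (by omega)]
  have : dg i = 64 := by
    unfold dg
    cases hb : Nat.beq i 320 with
    | false => rfl
    | true =>
      have := Nat.eq_of_beq_eq_true hb
      omega
  simp [this]

theorem norm_y : ∑ k ∈ range 63, X 320 k * X 320 k = 52 := by
  rw [gram (by omega) (by omega), aii (by omega)]
  have : dg 320 = 56 := rfl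
  simp [this]

theorem dot_adj {i j : ℕ} (hi : i < 321) (hj : j < 321) (hij : i ≠ j) (h : Adj i j) :
    ∑ k ∈ range 63, X i k * X j k = 12 := by
  rw [gram hi hj]
  have h' : aij i j = 1 := by unfold aij; rw [if_pos (show tb (row i) j = true from h)]
  simp [h', Ne.symm hij]

theorem dot_nadj {i j : ℕ} (hi : i < 321) (hj : j < 321) (hij : i ≠ j) (h : ¬ Adj i j) :
    ∑ k ∈ range 63, X i k * X j k = -4 := by
  rw [gram hi hj]
  have h' : aij i j = 0 := by
    unfold aij; rw [if_neg (show ¬ (tb (row i) j = true) from h)]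
  simp [h', Ne.symm hij]

end Vale.Agent.P052h4
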