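import Vale.Agent.P052_h4.Check

namespace Vale.Agent.P052h4

/-- the packed `k`-th coordinate column -/
def col (k : ℕ) : ℕ := cols.getD k 0

/-- `4 +` the `k`-th coordinate of the `i`-th vector -/
def Xn (i k : ℕ) : ℕ := Nat.mod (Nat.div (col k) (Nat.pow 16384 i)) 16384

/-- `4 + ` entries are at most 8 -/
def chkSmall : Bool := allLT (fun i => allLT (fun k => Nat.ble (Xn i k) 8) 63) 321

/-- each column is the number with base-16384 digits `Xn j k` -/
def chkCol : Bool :=
  allLT (fun k => Nat.beq (sumTo (fun j => Nat.mul (Xn j k) (Nat.pow 16384 j)) 321) (col k)) 63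

/-- sum of the powers of the base -/
def ONES : ℕ := sumTo (fun j => Nat.pow 16384 j) 321

/-- sum of the columns -/
def CSUM : ℕ := sumTo col 63

/-- diagonal correction -/
def dg (i : ℕ) : ℕ := Bool.rec (motive := fun _ => ℕ) 64 56 (Nat.beq i 320)

/-- Gram identity for row `i` in packed form -/
def chkRow (i : ℕ) : Bool :=
  Nat.beq
    (Nat.add (sumTo (fun k => Nat.mul (Xn i k) (col k)) 63) (Nat.mul 1012 ONES))
    (Nat.add (Nat.add
      (Nat.mul 16 (sumTo (fun j => Bool.rec (motive := fun _ => ℕ) 0 (Nat.pow 16384 j)
        (tb (row i) j)) 321))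
      (Nat.mul (dg i) (Nat.pow 16384 i)))
      (Nat.add (Nat.mul (Nat.mul 4 (sumTo (Xn i) 63)) ONES) (Nat.mul 4 CSUM)))

/-- no loops -/
def chkDiag : Bool :=
  allLT (fun i => Bool.rec (motive := fun _ => Bool) true false (tb (row i) i)) 321

set_option maxRecDepth 100000 in
theorem small_ok : chkSmall = true := by decide +kernel

set_option maxRecDepth 100000 in
theorem col_ok : chkCol = true := by decide +kernel

set_option maxRecDepth 100000 in
theorem row_ok : allLT chkRow 321 = true := by decide +kernel

set_option maxRecDepth 100000 in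
theorem diag_ok : chkDiag = true := by decide +kernel

end Vale.Agent.P052h4
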