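import Vale.Agent.P052_h4.Dot
import Vale.Agent.P052_h4.CliqueA
import Vale.Agent.P052_h4.CliqueB
import Vale.Agent.P052_h4.CliqueC

namespace Vale.Agent.P052h4

open Finset

theorem all_chunks {a : ℕ} (ha : a < 320) : noC 4 (bits (row a) a []) = true := by
  rcases Nat.lt_or_ge a 200 with h | h
  · exact chunk_spec chunkA a (by omega) (by omega)
  · rcases Nat.lt_or_ge a 270 with h' | h'
    · exact chunk_spec chunkB a (by omega) (by omega)
    · exact chunk_spec chunkC a (by omega) (by omega)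

/-- cliques among the 320 vertices have at most five elements -/
theorem clique_le_five (s : Finset ℕ) (hs : ∀ x ∈ s, x < 320)
    (hc : ∀ x ∈ s, ∀ y ∈ s, x ≠ y → Adj x y) : s.card ≤ 5 := by
  rcases s.eq_empty_or_nonempty with h0 | hne
  · simp [h0]
  · set a := s.max' hne with ha
    have has : a ∈ s := s.max'_mem hne
    have h1 : (s.erase a).card ≤ 4 := by
      refine noC_spec 4 _ (all_chunks (hs a has)) (s.erase a) ?_ ?_
      · intro x hx
        rw [mem_bits]
        right
        have hxs := Finset.mem_of_mem_erase hx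
        have hxa := Finset.ne_of_mem_erase hx
        refine ⟨?_, hc a has x hxs (Ne.symm hxa)⟩
        exact lt_of_le_of_ne (s.le_max' x hxs) hxa
      · intro x hx y hy hxy
        exact hc x (Finset.mem_of_mem_erase hx) y (Finset.mem_of_mem_erase hy) hxy
    have h2 := Finset.card_erase_add_one has
    omega

/-- cliques inside the neighbourhood of the extra vertex have at most four elements -/
theorem clique_nbr_le_four (s : Finset ℕ) (hs : ∀ x ∈ s, x < 320)
    (hn : ∀ x ∈ s, Adj 320 x)
    (hc : ∀ x ∈ s, ∀ y ∈ s, x ≠ y → Adj x y) : s.card ≤ 4 := by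
  refine noC_spec 4 _ chunkY s ?_ hc
  intro x hx
  rw [mem_bits]
  exact Or.inr ⟨hs x hx, hn x hx⟩

/-- The Euclidean space of dimension 63. -/
abbrev E63 := EuclideanSpace ℝ (Fin 63)

/-- the `i`-th point -/
noncomputable def pt (i : ℕ) : E63 := WithLp.toLp 2 (fun k : Fin 63 => (X i k : ℝ))

/-- the scaling factor of the extra point -/
noncomputable def tt : ℝ := (Real.sqrt 222 - 1) / 13

theorem tt_eq : 52 * tt ^ 2 + 8 * tt = 68 := by
  have h : Real.sqrt 222 ^ 2 = 222 := Real.sq_sqrt (by norm_num)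
  unfold tt
  nlinarith [h]

theorem tt_pos : 0 < tt := by
  unfold tt
  have h : (1 : ℝ) < Real.sqrt 222 := by
    rw [Real.lt_sqrt] <;> norm_num
  apply div_pos <;> linarith

/-- the extra (apex) point -/
noncomputable def apex : E63 := tt • pt 320

theorem inner_pt (i j : ℕ) :
    (∑ k : Fin 63, (X i k : ℝ) * (X j k : ℝ)) = ((∑ k ∈ range 63, X i k * X j k : ℤ) : ℝ) := by
  rw [Finset.sum_range]
  push_cast
  rfl

theorem dist_sq_pt (i j : ℕ) :
    dist (pt i) (pt j) ^ 2 =
      ((∑ k ∈ range 63, X i k * X i k : ℤ) : ℝ) + ((∑ k ∈ range 63, X j k * X j k : ℤ) : ℝ)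
        - 2 * ((∑ k ∈ range 63, X i k * X j k : ℤ) : ℝ) := by
  rw [EuclideanSpace.dist_eq, Real.sq_sqrt (Finset.sum_nonneg (fun _ _ => sq_nonneg _))]
  rw [← inner_pt, ← inner_pt, ← inner_pt]
  rw [Finset.mul_sum, ← Finset.sum_add_distrib, ← Finset.sum_sub_distrib]
  refine Finset.sum_congr rfl (fun k _ => ?_)
  simp only [pt, Real.dist_eq, sq_abs]
  ring

theorem dist_sq_apex (j : ℕ) :
    dist apex (pt j) ^ 2 =
      tt ^ 2 * ((∑ k ∈ range 63, X 320 k * X 320 k : ℤ) : ℝ) +
        ((∑ k ∈ range 63, X j k * X j k : ℤ) : ℝ)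
        - 2 * tt * ((∑ k ∈ range 63, X 320 k * X j k : ℤ) : ℝ) := by
  rw [EuclideanSpace.dist_eq, Real.sq_sqrt (Finset.sum_nonneg (fun _ _ => sq_nonneg _))]
  rw [← inner_pt, ← inner_pt, ← inner_pt]
  rw [Finset.mul_sum, Finset.mul_sum, ← Finset.sum_add_distrib, ← Finset.sum_sub_distrib]
  refine Finset.sum_congr rfl (fun k _ => ?_)
  simp only [apex, pt, Real.dist_eq, sq_abs, PiLp.smul_apply, smul_eq_mul]
  ring

theorem dist_adj {i j : ℕ} (hi : i < 320) (hj : j < 320) (hij : i ≠ j) (h : Adj i j) :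
    dist (pt i) (pt j) ^ 2 = 96 := by
  rw [dist_sq_pt, norm_lt hi, norm_lt hj, dot_adj (by omega) (by omega) hij h]
  norm_num

theorem dist_nadj {i j : ℕ} (hi : i < 320) (hj : j < 320) (hij : i ≠ j) (h : ¬ Adj i j) :
    dist (pt i) (pt j) ^ 2 = 128 := by
  rw [dist_sq_pt, norm_lt hi, norm_lt hj, dot_nadj (by omega) (by omega) hij h]
  norm_num

theorem dist_le_pt {i j : ℕ} (hi : i < 320) (hj : j < 320) :
    dist (pt i) (pt j) ^ 2 ≤ 128 := by
  by_cases hij : i = j
  · subst hij; simp
  · by_cases h : Adj i j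
    · rw [dist_adj hi hj hij h]; norm_num
    · rw [dist_nadj hi hj hij h]

theorem dist_apex_nadj {j : ℕ} (hj : j < 320) (h : ¬ Adj 320 j) :
    dist apex (pt j) ^ 2 = 128 := by
  rw [dist_sq_apex, norm_y, norm_lt hj, dot_nadj (by omega) (by omega) (by omega) h]
  have := tt_eq
  push_cast
  linarith

theorem dist_apex_le {j : ℕ} (hj : j < 320) : dist apex (pt j) ^ 2 ≤ 128 := by
  by_cases h : Adj 320 j
  · rw [dist_sq_apex, norm_y, norm_lt hj, dot_adj (by omega) (by omega) (by omega) h]
    have := tt_eq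
    have := tt_pos
    push_cast
    linarith
  · rw [dist_apex_nadj hj h]

/-- the counterexample set -/
def YY : Set E63 := insert apex (pt '' {i | i < 320})

theorem dist_le_YY {a b : E63} (ha : a ∈ YY) (hb : b ∈ YY) : dist a b ≤ Real.sqrt 128 := by
  apply Real.le_sqrt_of_sq_le
  rcases ha with rfl | ⟨i, hi, rfl⟩
  · rcases hb with rfl | ⟨j, hj, rfl⟩
    · simp
    · exact dist_apex_le hj
  · rcases hb with rfl | ⟨j, hj, rfl⟩
    · rw [dist_comm]; exact dist_apex_le hi
    · exact dist_le_pt hi hj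

theorem bounded_YY : Bornology.IsBounded YY :=
  Metric.isBounded_iff.mpr ⟨Real.sqrt 128, fun _ ha _ hb => dist_le_YY ha hb⟩

theorem diam_YY_le : Metric.diam YY ≤ Real.sqrt 128 :=
  Metric.diam_le_of_forall_dist_le (Real.sqrt_nonneg _) (fun _ ha _ hb => dist_le_YY ha hb)

theorem dist01 : 0 < dist (pt 0) (pt 1) := by
  have h : dist (pt 0) (pt 1) ^ 2 = 96 ∨ dist (pt 0) (pt 1) ^ 2 = 128 := by
    by_cases h : Adj 0 1
    · exact Or.inl (dist_adj (by norm_num) (by norm_num) (by norm_num) h)
    · exact Or.inr (dist_nadj (by norm_num) (by norm_num) (by norm_num) h)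
  rcases lt_or_eq_of_le (dist_nonneg (x := pt 0) (y := pt 1)) with h' | h'
  · exact h'
  · rw [← h'] at h
    norm_num at h

theorem diam_YY_pos : 0 < Metric.diam YY := by
  refine lt_of_lt_of_le dist01 (Metric.dist_le_diam_of_mem bounded_YY ?_ ?_)
  · exact Or.inr ⟨0, by simp, rfl⟩
  · exact Or.inr ⟨1, by simp, rfl⟩

/-- points of a piece of smaller diameter are at distance less than `√128` -/
theorem lt_of_piece {P : Set E63} (hP : P ⊆ YY) (hd : Metric.diam P < Metric.diam YY)
    {a b : E63} (ha : a ∈ P) (hb : b ∈ P) : dist a b ^ 2 < 128 := by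
  have h1 : dist a b ≤ Metric.diam P :=
    Metric.dist_le_diam_of_mem (bounded_YY.subset hP) ha hb
  have h2 : dist a b < Real.sqrt 128 := lt_of_le_of_lt h1 (lt_of_lt_of_le hd diam_YY_le)
  have h3 := (Real.lt_sqrt (dist_nonneg)).mp h2
  exact h3

theorem no_partition (P : Fin 64 → Set E63) (hU : YY = ⋃ c, P c)
    (hd : ∀ c, Metric.diam (P c) < Metric.diam YY) : False := by
  classical
  have hsub : ∀ c, P c ⊆ YY := fun c => by rw [hU]; exact Set.subset_iUnion P c
  have hpt : ∀ i : ℕ, ∃ c : Fin 64, i < 320 → pt i ∈ P c := by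
    intro i
    by_cases hi : i < 320
    · have : pt i ∈ YY := Or.inr ⟨i, hi, rfl⟩
      rw [hU] at this
      obtain ⟨c, hc⟩ := Set.mem_iUnion.mp this
      exact ⟨c, fun _ => hc⟩
    · exact ⟨0, fun h => absurd h hi⟩
  choose f hf using hpt
  have hap : apex ∈ YY := Or.inl rfl
  rw [hU] at hap
  obtain ⟨c₀, hc₀⟩ := Set.mem_iUnion.mp hap
  -- the fibres are cliques
  have hadj : ∀ i < 320, ∀ j < 320, i ≠ j → f i = f j → Adj i j := by
    intro i hi j hj hij hfij
    by_contra h
    have h1 := dist_nadj hi hj hij h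
    have h2 := hf i hi
    have h3 := hf j hj
    rw [← hfij] at h3
    have h4 := lt_of_piece (hsub _) (hd _) h2 h3
    linarith
  have hadj0 : ∀ i < 320, f i = c₀ → Adj 320 i := by
    intro i hi hfi
    by_contra h
    have h1 := dist_apex_nadj hi h
    have h2 := hf i hi
    rw [hfi] at h2
    have h4 := lt_of_piece (hsub _) (hd _) hc₀ h2
    linarith
  have hcard : ∀ c, ((range 320).filter (fun i => f i = c)).card ≤ 5 := by
    intro c
    apply clique_le_five
    · intro x hx
      exact Finset.mem_range.mp (Finset.mem_filter.mp hx).1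
    · intro x hx y hy hxy
      have hx' := Finset.mem_filter.mp hx
      have hy' := Finset.mem_filter.mp hy
      exact hadj x (Finset.mem_range.mp hx'.1) y (Finset.mem_range.mp hy'.1) hxy
        (hx'.2.trans hy'.2.symm)
  have hcard0 : ((range 320).filter (fun i => f i = c₀)).card ≤ 4 := by
    apply clique_nbr_le_four
    · intro x hx
      exact Finset.mem_range.mp (Finset.mem_filter.mp hx).1
    · intro x hx
      have hx' := Finset.mem_filter.mp hx
      exact hadj0 x (Finset.mem_range.mp hx'.1) hx'.2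
    · intro x hx y hy hxy
      have hx' := Finset.mem_filter.mp hx
      have hy' := Finset.mem_filter.mp hy
      exact hadj x (Finset.mem_range.mp hx'.1) y (Finset.mem_range.mp hy'.1) hxy
        (hx'.2.trans hy'.2.symm)
  have htot : (range 320).card =
      ∑ c : Fin 64, ((range 320).filter (fun i => f i = c)).card :=
    Finset.card_eq_sum_card_fiberwise (fun i _ => Finset.mem_coe.mpr (Finset.mem_univ (f i)))
  rw [Finset.card_range, ← Finset.add_sum_erase _ _ (Finset.mem_univ c₀)] at htot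
  have h5 : ∑ c ∈ (Finset.univ : Finset (Fin 64)).erase c₀,
      ((range 320).filter (fun i => f i = c)).card ≤ ∑ c ∈ (Finset.univ : Finset (Fin 64)).erase c₀, 5 :=
    Finset.sum_le_sum (fun c _ => hcard c)
  rw [Finset.sum_const, Finset.card_erase_of_mem (Finset.mem_univ c₀), Finset.card_univ,
    Fintype.card_fin, smul_eq_mul] at h5
  omega

end Vale.Agent.P052h4
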